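import Claimed.Agent.Sup.S0374.Factor

/-! Support statement S0374: the centre of the rotation algebra is scalar (irrational angle). -/

set_option autoImplicit false

open MeasureTheory Filter
open scoped ENNReal Topology
open Claims.C0320.Invariant233 Claims.C0320.Invariant233.WeightedShift
open Claimed.Agent.R182.Abs Claimed.Agent.R182.Rot

namespace Claimed.Agent.S0374

theorem rep_coord (θ : ℝ) (c : C(Circ, ℂ)) (z : Hc) :
    ∀ᵐ x ∂(circleMeasure : Measure Circ), ∀ k : ℤ,
      (Rotation.representation θ c z) x k = c (x + k • (θ : Circ)) * z x k := by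
  filter_upwards [rep_representation θ c z] with x hx k
  rw [hx]
  rfl

theorem mOp_coord (g : Circ → ℝ) (hg : Measurable g) (h01 : ∀ x, 0 ≤ g x ∧ g x ≤ 1) (z : Hc) :
    ∀ᵐ x ∂(circleMeasure : Measure Circ), ∀ k : ℤ,
      (mOp g hg z) x k = ((g x : ℝ) : ℂ) * z x k := by
  filter_upwards [rep_mOp g hg z] with x hx k
  rw [hx]
  simp only [id]
  rw [Dg_apply, clamp_of_mem (h01 x).1 (h01 x).2]

theorem vac_coord : ∀ᵐ x ∂(circleMeasure : Measure Circ), ∀ k : ℤ,
    (vac : Hc) x k = if k = 0 then 1 else 0 := by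
  filter_upwards [ec_ae 0] with x hx k
  have hx' : (vac : Hc) x = eF 0 := hx
  rw [hx']
  by_cases hk : k = 0
  · subst hk
    simp [eF_self]
  · rw [if_neg hk, eF_ne hk]

/-- `π(g) vac = m_g vac` -/
theorem rep_vac_eq (θ : ℝ) (g : C(Circ, ℝ)) (h01 : ∀ x, 0 ≤ g x ∧ g x ≤ 1) :
    Rotation.representation θ (Rotation.complexWeight g) vac =
      mOp g g.continuous.measurable vac := by
  apply Lp.ext
  filter_upwards [rep_coord θ (Rotation.complexWeight g) vac,
    mOp_coord g g.continuous.measurable h01 vac, vac_coord] with x h1 h2 h3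
  ext k
  rw [h1 k, h2 k, h3 k]
  by_cases hk : k = 0
  · subst hk
    simp [Rotation.complexWeight]
  · simp [hk]

/-- step 1 -/
theorem center_step1 (θ : ℝ) (a : Hc →L[ℂ] Hc) (ha : a ∈ Rotation.algebra θ)
    (hc : ∀ b ∈ Rotation.algebra θ, a * b = b * a) (g : C(Circ, ℝ)) (h01 : ∀ x, 0 ≤ g x ∧ g x ≤ 1) :
    ∀ᵐ x ∂(circleMeasure : Measure Circ), ∀ k : ℤ,
      ((g (x + k • (θ : Circ)) : ℝ) : ℂ) * (a vac) x k = ((g x : ℝ) : ℂ) * (a vac) x k := by
  have hM := inMM_of_mem ha
  have h1 : Rotation.representation θ (Rotation.complexWeight g) (a vac) =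
      mOp g g.continuous.measurable (a vac) := by
    have e1 := congrArg (fun A : Hc →L[ℂ] Hc => A vac) (hc _ (representation_mem θ
      (Rotation.complexWeight g)))
    change a (Rotation.representation θ (Rotation.complexWeight g) vac) =
      Rotation.representation θ (Rotation.complexWeight g) (a vac) at e1
    have e2 := congrArg (fun A : Hc →L[ℂ] Hc => A vac) (hM.m g g.continuous.measurable)
    change a (mOp g g.continuous.measurable vac) = mOp g g.continuous.measurable (a vac) at e2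
    rw [← e1, ← e2, rep_vac_eq θ g h01]
  filter_upwards [rep_coord θ (Rotation.complexWeight g) (a vac),
    mOp_coord g g.continuous.measurable h01 (a vac)] with x e1 e2 k
  have e3 := e1 k
  rw [h1, e2 k] at e3
  exact e3.symm

/-- real and imaginary part of the character, rescaled to `[0,1]` -/
noncomputable def gRe : C(Circ, ℝ) :=
  ⟨fun x => (1 + (fourier 1 x : ℂ).re) / 2,
    (continuous_const.add (Complex.continuous_re.comp (fourier 1).continuous)).div_const _⟩

noncomputable def gIm : C(Circ, ℝ) :=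
  ⟨fun x => (1 + (fourier 1 x : ℂ).im) / 2,
    (continuous_const.add (Complex.continuous_im.comp (fourier 1).continuous)).div_const _⟩

theorem norm_fourier_one (x : Circ) : ‖(fourier 1 x : ℂ)‖ = 1 := by
  rw [fourier_apply]
  exact Circle.norm_coe _

theorem gRe_01 (x : Circ) : 0 ≤ gRe x ∧ gRe x ≤ 1 := by
  have h1 := Complex.abs_re_le_norm (fourier 1 x : ℂ)
  rw [norm_fourier_one, abs_le] at h1
  change 0 ≤ (1 + (fourier 1 x : ℂ).re) / 2 ∧ (1 + (fourier 1 x : ℂ).re) / 2 ≤ 1
  constructor <;> linarith [h1.1, h1.2]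

theorem gIm_01 (x : Circ) : 0 ≤ gIm x ∧ gIm x ≤ 1 := by
  have h1 := Complex.abs_im_le_norm (fourier 1 x : ℂ)
  rw [norm_fourier_one, abs_le] at h1
  change 0 ≤ (1 + (fourier 1 x : ℂ).im) / 2 ∧ (1 + (fourier 1 x : ℂ).im) / 2 ≤ 1
  constructor <;> linarith [h1.1, h1.2]

theorem eq_of_gRe_gIm {x y : Circ} (h1 : gRe x = gRe y) (h2 : gIm x = gIm y) : x = y := by
  change (1 + (fourier 1 x : ℂ).re) / 2 = (1 + (fourier 1 y : ℂ).re) / 2 at h1
  change (1 + (fourier 1 x : ℂ).im) / 2 = (1 + (fourier 1 y : ℂ).im) / 2 at h2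
  have h3 : (fourier 1 x : ℂ) = fourier 1 y := Complex.ext (by linarith) (by linarith)
  rw [fourier_one, fourier_one] at h3
  exact AddCircle.injective_toCircle one_ne_zero (Circle.ext h3)

/-- step 2: the off-diagonal coordinates vanish -/
theorem center_step2 (θ : ℝ) (hθ : Irrational θ) (a : Hc →L[ℂ] Hc) (ha : a ∈ Rotation.algebra θ)
    (hc : ∀ b ∈ Rotation.algebra θ, a * b = b * a) :
    ∀ᵐ x ∂(circleMeasure : Measure Circ), ∀ k : ℤ, k ≠ 0 → (a vac) x k = 0 := by
  filter_upwards [center_step1 θ a ha hc gRe gRe_01, center_step1 θ a ha hc gIm gIm_01]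
    with x h1 h2 k hk
  by_contra hne
  have e1 : gRe (x + k • (θ : Circ)) = gRe x := by
    have := mul_right_cancel₀ hne (h1 k)
    exact_mod_cast this
  have e2 : gIm (x + k • (θ : Circ)) = gIm x := by
    have := mul_right_cancel₀ hne (h2 k)
    exact_mod_cast this
  have e3 : x + k • (θ : Circ) = x := eq_of_gRe_gIm e1 e2
  have e4 : k • (θ : Circ) = 0 := by simpa using e3
  have e5 := endgame_addOrderOf θ hθ
  rw [addOrderOf_eq_zero_iff] at e5
  exact e5 (isOfFinAddOrder_iff_zsmul_eq_zero.mpr ⟨k, hk, e4⟩)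

theorem U_vac : (Rotation.U : Hc →L[ℂ] Hc) vac = ec 1 := by
  rw [U_eq]
  apply Lp.ext
  filter_upwards [rep_ShX (μ := (circleMeasure : Measure Circ)) 1 vac, ec_ae 0, ec_ae 1] with x h1 h2 h3
  have h2' : (vac : Hc) x = eF 0 := h2
  rw [h1, h3]
  simp only [id]
  rw [h2', Sf_eF, zero_add]

/-- step 3: invariance of the diagonal coordinate -/
theorem center_step3 (θ : ℝ) (a : Hc →L[ℂ] Hc) (ha : a ∈ Rotation.algebra θ)
    (hc : ∀ b ∈ Rotation.algebra θ, a * b = b * a) :
    ∀ᵐ x ∂(circleMeasure : Measure Circ), (a vac) (x + (θ : Circ)) 0 = (a vac) x 0 := by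
  have hM := inMM_of_mem ha
  have h1 : (Rotation.U : Hc →L[ℂ] Hc) (a vac) = rho θ (a vac) := by
    have e1 := congrArg (fun A : Hc →L[ℂ] Hc => A vac) (hc _ (U_mem θ))
    change a ((Rotation.U : Hc →L[ℂ] Hc) vac) = (Rotation.U : Hc →L[ℂ] Hc) (a vac) at e1
    have e2 := congrArg (fun A : Hc →L[ℂ] Hc => A vac) hM.rho
    change a (rho θ vac) = rho θ (a vac) at e2
    have e3 : rho θ vac = ec 1 := by
      have := rho_ec θ 0
      rwa [zero_add] at this
    rw [← e1, ← e2, U_vac, e3]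
  rw [U_eq] at h1
  filter_upwards [rep_ShX (μ := (circleMeasure : Measure Circ)) 1 (a vac), rep_rho θ (a vac)]
    with x e1 e2
  rw [h1, e2] at e1
  simp only [id] at e1
  have e3 := congrArg (fun v : Fib => v 1) e1
  simp only [Sf_apply, sub_self] at e3
  exact e3

/-- (A) the centre is scalar -/
theorem scalar_center (θ : ℝ) (hθ : Irrational θ) (a : Hc →L[ℂ] Hc) (ha : a ∈ Rotation.algebra θ)
    (hc : ∀ b ∈ Rotation.algebra θ, a * b = b * a) : ∃ z : ℂ, a = z • (1 : Hc →L[ℂ] Hc) := by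
  have hM := inMM_of_mem ha
  have herg : Ergodic (fun x : Circ => x + (θ : Circ)) (circleMeasure : Measure Circ) :=
    AddCircle.ergodic_add_right.mpr (endgame_addOrderOf θ hθ)
  have hmeas : AEStronglyMeasurable (fun x => (a vac) x 0) (circleMeasure : Measure Circ) :=
    (lp.evalCLM ℂ (fun _ : ℤ => ℂ) 2 0).continuous.comp_aestronglyMeasurable
      (Lp.aestronglyMeasurable (a vac))
  obtain ⟨c, hcst⟩ := herg.ae_eq_const_of_ae_eq_comp_ae hmeas (center_step3 θ a ha hc)
  refine ⟨c, ?_⟩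
  have hz : (a - c • (1 : Hc →L[ℂ] Hc)) vac = 0 := by
    apply Model.eq_zero_of_coord
    intro j
    have e0 : (a - c • (1 : Hc →L[ℂ] Hc)) vac = a vac - c • vac := rfl
    rw [e0]
    filter_upwards [Lp.coeFn_sub (a vac) (c • vac), Lp.coeFn_smul c vac, vac_coord,
      center_step2 θ hθ a ha hc, hcst] with x h1 h2 h3 h4 h5
    rw [h1]
    simp only [Pi.sub_apply]
    rw [h2]
    simp only [Pi.smul_apply]
    change (a vac) x j - c * (vac : Hc) x j = 0
    rw [h3 j]
    by_cases hj : j = 0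
    · subst hj
      have h5' : (a vac) x 0 = c := h5
      simp [h5']
    · simp [hj, h4 j hj]
  have := (hM.sub ((InMM.one θ).smul c)).eq_zero_of_vac hz
  exact sub_eq_zero.mp this

end Claimed.Agent.S0374
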