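import Mathlib

/-! Support statement S0374: every von Neumann algebra on a separable Hilbert space has a separable
predual (elementary proof: the predual is the norm closure of the span of the vector functionals). -/

set_option autoImplicit false

open scoped InnerProductSpace

namespace Claimed.Agent.S0374

universe u

variable {H : Type u} [NormedAddCommGroup H] [InnerProductSpace ℂ H] [CompleteSpace H]

/-- the carrier of the algebra as a normed space -/
abbrev Car (M : VonNeumannAlgebra H) : Type u := M.toStarSubalgebra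

/-- inclusion of the algebra into `B(H)` as a continuous linear map -/
noncomputable def inclCLM (M : VonNeumannAlgebra H) : Car M →L[ℂ] (H →L[ℂ] H) :=
  LinearMap.mkContinuous
    { toFun := fun a => (a : H →L[ℂ] H)
      map_add' := fun _ _ => rfl
      map_smul' := fun _ _ => rfl } 1 (fun a => by simp)

theorem inclCLM_apply (M : VonNeumannAlgebra H) (a : Car M) : inclCLM M a = (a : H →L[ℂ] H) := rfl

/-- the vector functional `a ↦ ⟪x, a y⟫` -/
noncomputable def vecFun (M : VonNeumannAlgebra H) (x y : H) : StrongDual ℂ (Car M) :=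
  (innerSL ℂ x) ∘L ((ContinuousLinearMap.apply ℂ H y) ∘L (inclCLM M))

theorem vecFun_apply (M : VonNeumannAlgebra H) (x y : H) (a : Car M) :
    vecFun M x y a = ⟪x, (a : H →L[ℂ] H) y⟫_ℂ := rfl

theorem continuous_vecFun (M : VonNeumannAlgebra H) :
    Continuous (fun p : H × H => vecFun M p.1 p.2) := by
  unfold vecFun
  have h1 : Continuous (fun p : H × H => innerSL ℂ p.1) :=
    (innerSL ℂ (E := H)).continuous.comp continuous_fst
  have h2 : Continuous (fun p : H × H => (ContinuousLinearMap.apply ℂ H p.2) ∘L (inclCLM M)) :=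
    ((ContinuousLinearMap.apply ℂ H).continuous.comp continuous_snd).clm_comp continuous_const
  exact h1.clm_comp h2

theorem norm_vecFun_le (M : VonNeumannAlgebra H) (x y : H) : ‖vecFun M x y‖ ≤ ‖x‖ * ‖y‖ := by
  refine ContinuousLinearMap.opNorm_le_bound _ (by positivity) (fun a => ?_)
  rw [vecFun_apply]
  calc ‖⟪x, (a : H →L[ℂ] H) y⟫_ℂ‖ ≤ ‖x‖ * ‖(a : H →L[ℂ] H) y‖ := norm_inner_le_norm _ _
    _ ≤ ‖x‖ * (‖(a : H →L[ℂ] H)‖ * ‖y‖) := by gcongr; exact ContinuousLinearMap.le_opNorm _ _
    _ = ‖x‖ * ‖y‖ * ‖a‖ := by rw [show ‖a‖ = ‖(a : H →L[ℂ] H)‖ from rfl]; ring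

/-- the predual: closed span of the vector functionals -/
noncomputable def preD (M : VonNeumannAlgebra H) : Submodule ℂ (StrongDual ℂ (Car M)) :=
  (Submodule.span ℂ (Set.range (fun p : H × H => vecFun M p.1 p.2))).topologicalClosure

theorem vecFun_mem (M : VonNeumannAlgebra H) (x y : H) : vecFun M x y ∈ preD M :=
  Submodule.le_topologicalClosure _ (Submodule.subset_span ⟨(x, y), rfl⟩)

theorem isClosed_preD (M : VonNeumannAlgebra H) : IsClosed (preD M : Set (StrongDual ℂ (Car M))) :=
  Submodule.isClosed_topologicalClosure _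

/-- the predual as a type of its own (so that all structures come from the normed group) -/
def PD (M : VonNeumannAlgebra H) : Type u := ↥(preD M)

noncomputable instance (M : VonNeumannAlgebra H) : NormedAddCommGroup (PD M) :=
  inferInstanceAs (NormedAddCommGroup ↥(preD M))

noncomputable instance (M : VonNeumannAlgebra H) : NormedSpace ℂ (PD M) :=
  inferInstanceAs (NormedSpace ℂ ↥(preD M))

instance (M : VonNeumannAlgebra H) : CompleteSpace (PD M) :=
  (isClosed_preD M).completeSpace_coe

theorem separable_PD [TopologicalSpace.SeparableSpace H] (M : VonNeumannAlgebra H) :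
    TopologicalSpace.SeparableSpace (PD M) := by
  have h1 : TopologicalSpace.IsSeparable (Set.range (fun p : H × H => vecFun M p.1 p.2)) :=
    TopologicalSpace.isSeparable_range (continuous_vecFun M)
  have h2 := h1.span (R := ℂ)
  have h3 := h2.closure
  rw [← Submodule.topologicalClosure_coe] at h3
  exact h3.separableSpace

/-- the inclusion of the predual into the dual of the algebra -/
noncomputable def inclPD (M : VonNeumannAlgebra H) : PD M →ₗᵢ[ℂ] StrongDual ℂ (Car M) where
  toFun := fun φ => φ.1
  map_add' := fun _ _ => rfl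
  map_smul' := fun _ _ => rfl
  norm_map' := fun _ => rfl

/-- the vector functionals as elements of the predual -/
noncomputable def vecPD (M : VonNeumannAlgebra H) (x y : H) : PD M := ⟨vecFun M x y, vecFun_mem M x y⟩

theorem inclPD_vecPD (M : VonNeumannAlgebra H) (x y : H) : inclPD M (vecPD M x y) = vecFun M x y := rfl

theorem norm_vecPD_le (M : VonNeumannAlgebra H) (x y : H) : ‖vecPD M x y‖ ≤ ‖x‖ * ‖y‖ :=
  norm_vecFun_le M x y

/-- evaluation at `a` as a functional on the predual -/
noncomputable def evD (M : VonNeumannAlgebra H) (a : Car M) : StrongDual ℂ (PD M) :=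
  (ContinuousLinearMap.apply ℂ ℂ a) ∘L (inclPD M).toContinuousLinearMap

theorem evD_apply (M : VonNeumannAlgebra H) (a : Car M) (φ : PD M) :
    evD M a φ = (inclPD M φ) a := rfl

theorem norm_evD (M : VonNeumannAlgebra H) (a : Car M) : ‖evD M a‖ = ‖a‖ := by
  apply le_antisymm
  · refine ContinuousLinearMap.opNorm_le_bound _ (norm_nonneg _) (fun φ => ?_)
    rw [evD_apply, mul_comm, ← (inclPD M).norm_map φ]
    exact (inclPD M φ).le_opNorm a
  · show ‖(a : H →L[ℂ] H)‖ ≤ _
    refine ContinuousLinearMap.opNorm_le_bound _ (norm_nonneg _) (fun y => ?_)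
    set z : H := (a : H →L[ℂ] H) y with hz
    by_cases h0 : z = 0
    · rw [h0, norm_zero]; positivity
    have hpos : 0 < ‖z‖ := norm_pos_iff.mpr h0
    have h1 : ‖evD M a (vecPD M z y)‖ ≤ ‖evD M a‖ * (‖z‖ * ‖y‖) := by
      refine ((evD M a).le_opNorm _).trans ?_
      gcongr
      exact norm_vecPD_le M z y
    rw [evD_apply, inclPD_vecPD, vecFun_apply, ← hz, inner_self_eq_norm_sq_to_K] at h1
    have h2 : ‖((‖z‖ : ℂ)) ^ 2‖ = ‖z‖ * ‖z‖ := by
      rw [norm_pow, Complex.norm_real, norm_norm, sq]
    have h3 : ‖z‖ * ‖z‖ ≤ ‖z‖ * (‖evD M a‖ * ‖y‖) := by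
      calc ‖z‖ * ‖z‖ = ‖((‖z‖ : ℂ)) ^ 2‖ := h2.symm
        _ ≤ ‖evD M a‖ * (‖z‖ * ‖y‖) := h1
        _ = ‖z‖ * (‖evD M a‖ * ‖y‖) := by ring
    exact le_of_mul_le_mul_left h3 hpos

theorem vecPD_add_left (M : VonNeumannAlgebra H) (x x' y : H) :
    vecPD M (x + x') y = vecPD M x y + vecPD M x' y := by
  apply (inclPD M).injective
  rw [map_add]
  ext a
  simp only [inclPD_vecPD, vecFun_apply, add_apply, inner_add_left]

theorem vecPD_smul_left (M : VonNeumannAlgebra H) (c : ℂ) (x y : H) :
    vecPD M (c • x) y = (starRingEnd ℂ c) • vecPD M x y := by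
  apply (inclPD M).injective
  rw [map_smul]
  ext a
  simp only [inclPD_vecPD, vecFun_apply, smul_apply, inner_smul_left, smul_eq_mul]

theorem vecPD_add_right (M : VonNeumannAlgebra H) (x y y' : H) :
    vecPD M x (y + y') = vecPD M x y + vecPD M x y' := by
  apply (inclPD M).injective
  rw [map_add]
  ext a
  simp only [inclPD_vecPD, vecFun_apply, add_apply, map_add, inner_add_right]

theorem vecPD_smul_right (M : VonNeumannAlgebra H) (c : ℂ) (x y : H) :
    vecPD M x (c • y) = c • vecPD M x y := by
  apply (inclPD M).injective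
  rw [map_smul]
  ext a
  simp only [inclPD_vecPD, vecFun_apply, smul_apply, map_smul, inner_smul_right,
    smul_eq_mul]

/-- the bounded sesquilinear form of a functional on the predual -/
noncomputable def formD (M : VonNeumannAlgebra H) (L : StrongDual ℂ (PD M)) : H →L⋆[ℂ] H →L[ℂ] ℂ :=
  LinearMap.mkContinuous₂
    (LinearMap.mk₂'ₛₗ (starRingEnd ℂ) (RingHom.id ℂ) (fun x y => L (vecPD M x y))
      (fun x x' y => by rw [vecPD_add_left, map_add])
      (fun c x y => by rw [vecPD_smul_left, map_smul])
      (fun x y y' => by rw [vecPD_add_right, map_add])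
      (fun c x y => by rw [vecPD_smul_right, map_smul]; rfl))
    ‖L‖ (fun x y => by
      change ‖L (vecPD M x y)‖ ≤ _
      refine (L.le_opNorm _).trans ?_
      rw [mul_assoc]
      gcongr
      exact norm_vecPD_le M x y)

theorem formD_apply (M : VonNeumannAlgebra H) (L : StrongDual ℂ (PD M)) (x y : H) :
    formD M L x y = L (vecPD M x y) := rfl

/-- the operator of a functional on the predual -/
noncomputable def opD (M : VonNeumannAlgebra H) (L : StrongDual ℂ (PD M)) : H →L[ℂ] H :=
  ContinuousLinearMap.adjoint (InnerProductSpace.continuousLinearMapOfBilin (formD M L))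

theorem inner_opD (M : VonNeumannAlgebra H) (L : StrongDual ℂ (PD M)) (x y : H) :
    ⟪x, opD M L y⟫_ℂ = L (vecPD M x y) := by
  unfold opD
  rw [ContinuousLinearMap.adjoint_inner_right, InnerProductSpace.continuousLinearMapOfBilin_apply,
    formD_apply]

theorem opD_comm (M : VonNeumannAlgebra H) (L : StrongDual ℂ (PD M)) (b : H →L[ℂ] H)
    (hb : ∀ g ∈ M, g * b = b * g) : b * opD M L = opD M L * b := by
  ext y
  refine ext_inner_left ℂ (fun x => ?_)
  change ⟪x, b (opD M L y)⟫_ℂ = ⟪x, opD M L (b y)⟫_ℂ
  rw [← ContinuousLinearMap.adjoint_inner_left, inner_opD, inner_opD]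
  congr 1
  apply (inclPD M).injective
  ext m
  simp only [inclPD_vecPD, vecFun_apply]
  rw [ContinuousLinearMap.adjoint_inner_left]
  have := congrArg (fun A : H →L[ℂ] H => A y) (hb (m : H →L[ℂ] H) m.2)
  change (m : H →L[ℂ] H) (b y) = b ((m : H →L[ℂ] H) y) at this
  rw [this]

theorem opD_mem (M : VonNeumannAlgebra H) (L : StrongDual ℂ (PD M)) : opD M L ∈ M := by
  have hgoal : opD M L ∈ M.commutant.commutant := by
    rw [VonNeumannAlgebra.mem_commutant_iff]
    intro b hb
    rw [VonNeumannAlgebra.mem_commutant_iff] at hb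
    exact opD_comm M L b hb
  rwa [M.commutant_commutant] at hgoal

theorem dense_span_vecPD (M : VonNeumannAlgebra H) :
    Dense ((Submodule.span ℂ (Set.range (fun p : H × H => vecPD M p.1 p.2)) : Submodule ℂ (PD M)) :
      Set (PD M)) := by
  intro φ
  rw [(inclPD M).isometry.isEmbedding.isInducing.closure_eq_preimage_closure_image, Set.mem_preimage]
  have h2 : (inclPD M) '' ((Submodule.span ℂ (Set.range (fun p : H × H => vecPD M p.1 p.2)) :
      Submodule ℂ (PD M)) : Set (PD M)) =
      ((Submodule.span ℂ (Set.range (fun p : H × H => vecFun M p.1 p.2)) :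
        Submodule ℂ (StrongDual ℂ (Car M))) : Set (StrongDual ℂ (Car M))) := by
    have h3 : (Submodule.span ℂ (Set.range (fun p : H × H => vecFun M p.1 p.2))) =
        (Submodule.span ℂ (Set.range (fun p : H × H => vecPD M p.1 p.2))).map
          (inclPD M).toLinearMap := by
      rw [Submodule.map_span, ← Set.range_comp]
      rfl
    rw [h3]
    rfl
  rw [h2, ← Submodule.topologicalClosure_coe]
  exact φ.2

theorem evD_surjective (M : VonNeumannAlgebra H) (L : StrongDual ℂ (PD M)) :
    evD M ⟨opD M L, opD_mem M L⟩ = L := by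
  have h : (Submodule.span ℂ (Set.range (fun p : H × H => vecPD M p.1 p.2)) : Submodule ℂ (PD M)) ≤
      LinearMap.ker ((evD M ⟨opD M L, opD_mem M L⟩ - L : StrongDual ℂ (PD M)) : PD M →ₗ[ℂ] ℂ) := by
    rw [Submodule.span_le]
    rintro _ ⟨p, rfl⟩
    rw [SetLike.mem_coe, LinearMap.mem_ker]
    change evD M ⟨opD M L, opD_mem M L⟩ (vecPD M p.1 p.2) - L (vecPD M p.1 p.2) = 0
    rw [evD_apply, inclPD_vecPD, vecFun_apply, sub_eq_zero]
    exact inner_opD M L p.1 p.2
  have h2 : (fun φ => evD M ⟨opD M L, opD_mem M L⟩ φ) = fun φ => L φ :=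
    Continuous.ext_on (dense_span_vecPD M) (ContinuousLinearMap.continuous _)
      (ContinuousLinearMap.continuous _) (fun φ hφ => by
        have := h hφ
        rw [LinearMap.mem_ker] at this
        exact sub_eq_zero.mp this)
  ext φ
  exact congrFun h2 φ

/-- the conjugate linear isometry `a ↦ ev (star a)` -/
noncomputable def starEv (M : VonNeumannAlgebra H) : Car M →ₗᵢ⋆[ℂ] StrongDual ℂ (PD M) where
  toFun := fun a => evD M (star a)
  map_add' := fun a b => by
    ext φ
    simp only [evD_apply, star_add, map_add, add_apply]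
  map_smul' := fun c a => by
    ext φ
    simp only [evD_apply, star_smul, map_smul, smul_apply]
    rfl
  norm_map' := fun a => by
    change ‖evD M (star a)‖ = ‖a‖
    rw [norm_evD, norm_star]

theorem starEv_surjective (M : VonNeumannAlgebra H) : Function.Surjective (starEv M) := by
  intro L
  refine ⟨star ⟨opD M L, opD_mem M L⟩, ?_⟩
  change evD M (star (star _)) = L
  rw [star_star]
  exact evD_surjective M L

/-- the predual theorem -/
theorem exists_separable_predual [TopologicalSpace.SeparableSpace H] (M : VonNeumannAlgebra H) :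
    ∃ (E : Type u) (_ : NormedAddCommGroup E) (_ : NormedSpace ℂ E)
      (_ : CompleteSpace E) (_ : TopologicalSpace.SeparableSpace E),
      Nonempty (StrongDual ℂ E ≃ₗᵢ⋆[ℂ] M.toStarSubalgebra) :=
  ⟨PD M, inferInstance, inferInstance, inferInstance, separable_PD M,
    ⟨(LinearIsometryEquiv.ofSurjective (starEv M) (starEv_surjective M)).symm⟩⟩

end Claimed.Agent.S0374
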