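import Claimed.Agent.R182.Rot.Pk08
import Claimed.Agent.Sup.S0374.Predual

/-! Support statement S0374: the rotation algebra `{U, V}''` of row 182 is a finite factor without
minimal projections. -/

set_option autoImplicit false

open MeasureTheory Filter
open scoped ENNReal Topology
open Claims.C0320.Invariant233 Claims.C0320.Invariant233.WeightedShift
open Claimed.Agent.R182.Abs Claimed.Agent.R182.Rot

namespace Claimed.Agent.S0374

/-- a projection commutes with `B` as soon as its range is invariant under `B` and `star B` -/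
theorem comm_of_inv {e B : Hc →L[ℂ] Hc} (he : IsStarProjection e) (h1 : e * B * e = B * e)
    (h2 : e * star B * e = star B * e) : B * e = e * B := by
  have h3 := congrArg star h2
  simp only [star_mul, star_star, he.isSelfAdjoint.star_eq] at h3
  rw [← h1, mul_assoc, h3]

/-- (B) isometries of the algebra are unitary -/
theorem finite_alg (θ : ℝ) (v : Hc →L[ℂ] Hc) (hv : v ∈ Rotation.algebra θ) (h : star v * v = 1) :
    v * star v = 1 := by
  have hM := inMM_of_mem hv
  have hvv : IsStarProjection (v * star v) := by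
    refine ⟨?_, ?_⟩
    · show v * star v * (v * star v) = v * star v
      calc v * star v * (v * star v) = v * (star v * v) * star v := by simp only [mul_assoc]
        _ = v * star v := by rw [h, mul_one]
    · show star (v * star v) = v * star v
      rw [star_mul, star_star]
  have hq : IsStarProjection (1 - v * star v) := hvv.one_sub
  by_contra hne
  have hq0 : (1 - v * star v) ≠ 0 := fun h0 => hne (sub_eq_zero.mp h0).symm
  have h1 := ((InMM.one θ).sub (hM.mul hM.star)).tau_pos hq hq0
  have h2 : tau (1 - v * star v) = 0 := by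
    rw [tau_sub, tau_one, tau_comm hM hM.star, h, tau_one, sub_self]
  rw [h2] at h1
  simp at h1

/-- the indicator projections -/
noncomputable def eS (θ : ℝ) (E : Set Circ) (hE : MeasurableSet E) : Hc →L[ℂ] Hc :=
  piOp θ (E.indicator fun _ => (1 : ℝ)) (measurable_const.indicator hE)

theorem eS_proj (θ : ℝ) (E : Set Circ) (hE : MeasurableSet E) : IsStarProjection (eS θ E hE) :=
  isStarProjection_piOp_indicator θ E hE

theorem eS_inMM (θ : ℝ) (E : Set Circ) (hE : MeasurableSet E) : InMM θ (eS θ E hE) :=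
  inMM_piOp θ _ _

theorem tau_eS (θ : ℝ) (E : Set Circ) (hE : MeasurableSet E) :
    (tau (eS θ E hE)).re = ((circleMeasure : Measure Circ) E).toReal := by
  unfold eS
  rw [tau_piOp_indicator θ E hE, Complex.ofReal_re]

theorem eS_mul_of_subset (θ : ℝ) {E F : Set Circ} (hE : MeasurableSet E) (hF : MeasurableSet F)
    (h : E ⊆ F) : eS θ E hE * eS θ F hF = eS θ E hE := by
  unfold eS
  refine Rep.ext ((rep_piOp θ _ (measurable_const.indicator hE)).mul
    (rep_piOp θ _ (measurable_const.indicator hF)) (Measure.QuasiMeasurePreserving.id _))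
    (rep_piOp θ _ (measurable_const.indicator hE)) (fun _ => rfl)
    (Eventually.of_forall fun x => ?_)
  ext v m
  change Dg _ (Dg _ v) m = Dg _ v m
  rw [Dg_apply, Dg_apply, Dg_apply]
  unfold orbW
  simp only [id]
  by_cases hxE : x + m • (θ : Circ) ∈ E
  · rw [Set.indicator_of_mem hxE, Set.indicator_of_mem (h hxE), clamp_of_mem zero_le_one le_rfl]
    simp
  · rw [Set.indicator_of_notMem hxE, clamp_of_mem le_rfl zero_le_one]
    simp

theorem eS_mul_of_subset' (θ : ℝ) {E F : Set Circ} (hE : MeasurableSet E) (hF : MeasurableSet F)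
    (h : E ⊆ F) : eS θ F hF * eS θ E hE = eS θ E hE := by
  have h1 := congrArg star (eS_mul_of_subset θ hE hF h)
  rwa [star_mul, (eS_proj θ E hE).isSelfAdjoint.star_eq, (eS_proj θ F hF).isSelfAdjoint.star_eq] at h1

theorem eS_univ (θ : ℝ) : eS θ Set.univ MeasurableSet.univ = 1 := by
  have hq : IsStarProjection (1 - eS θ Set.univ MeasurableSet.univ) := (eS_proj θ _ _).one_sub
  by_contra hne
  have hq0 : (1 - eS θ Set.univ MeasurableSet.univ) ≠ 0 := fun h0 => hne (sub_eq_zero.mp h0).symm
  have h1 := ((InMM.one θ).sub (eS_inMM θ _ MeasurableSet.univ)).tau_pos hq hq0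
  rw [tau_sub, tau_one, Complex.sub_re, tau_eS, Complex.one_re] at h1
  simp at h1

theorem eS_eq_zero (θ : ℝ) (E : Set Circ) (hE : MeasurableSet E)
    (h : (circleMeasure : Measure Circ) E = 0) : eS θ E hE = 0 := by
  by_contra hne
  have h1 := (eS_inMM θ E hE).tau_pos (eS_proj θ E hE) hne
  rw [tau_eS, h] at h1
  simp at h1

/-- a continuous function with values in `[0,1]` vanishing exactly on the closed ball of radius `r` -/
noncomputable def gz (r : ℝ) : C(Circ, ℝ) :=
  ⟨fun x => max 0 (min (‖x‖ - r) 1),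
    continuous_const.max ((continuous_norm.sub continuous_const).min continuous_const)⟩

theorem gz_apply (r : ℝ) (x : Circ) : gz r x = max 0 (min (‖x‖ - r) 1) := rfl

theorem gz_eq_zero_iff (r : ℝ) (x : Circ) : gz r x = 0 ↔ x ∈ Metric.closedBall (0 : Circ) r := by
  rw [gz_apply, mem_closedBall_zero_iff]
  constructor
  · intro h
    by_contra hlt
    rw [not_le] at hlt
    have h1 : 0 < min (‖x‖ - r) 1 := lt_min (by linarith) one_pos
    have h2 := le_max_right 0 (min (‖x‖ - r) 1)
    linarith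
  · intro h
    apply max_eq_left
    exact (min_le_left _ _).trans (by linarith)

/-- the balls -/
abbrev Zb (r : ℝ) : Set Circ := Metric.closedBall (0 : Circ) r

theorem Zb_meas (r : ℝ) : MeasurableSet (Zb r) := Metric.isClosed_closedBall.measurableSet

/-- `π(g_r)` -/
noncomputable def Gz (θ r : ℝ) : Hc →L[ℂ] Hc :=
  Rotation.representation θ (Rotation.complexWeight (gz r))

theorem Gz_mem (θ r : ℝ) : Gz θ r ∈ Rotation.algebra θ := representation_mem θ _

theorem Gz_coord (θ r : ℝ) (z : Hc) :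
    ∀ᵐ x ∂(circleMeasure : Measure Circ), ∀ k : ℤ,
      (Gz θ r z) x k = ((gz r (x + k • (θ : Circ)) : ℝ) : ℂ) * z x k := by
  filter_upwards [rep_representation θ (Rotation.complexWeight (gz r)) z] with x hx k
  unfold Gz
  rw [hx]
  rfl

theorem eS_coord (θ : ℝ) (E : Set Circ) (hE : MeasurableSet E) (z : Hc) :
    ∀ᵐ x ∂(circleMeasure : Measure Circ), ∀ k : ℤ,
      (eS θ E hE z) x k = (E.indicator (fun _ => (1 : ℂ)) (x + k • (θ : Circ))) * z x k := by
  filter_upwards [rep_piOp θ (E.indicator fun _ => (1 : ℝ)) (measurable_const.indicator hE) z]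
    with x hx k
  unfold eS
  rw [hx]
  simp only [id]
  rw [Dg_apply]
  unfold orbW
  by_cases hxE : x + k • (θ : Circ) ∈ E
  · rw [Set.indicator_of_mem hxE, Set.indicator_of_mem hxE, clamp_of_mem zero_le_one le_rfl]
    simp
  · rw [Set.indicator_of_notMem hxE, Set.indicator_of_notMem hxE, clamp_of_mem le_rfl zero_le_one]
    simp

theorem Gz_mul_eS (θ r : ℝ) : Gz θ r * eS θ (Zb r) (Zb_meas r) = 0 := by
  ext1 z
  apply Lp.ext
  filter_upwards [Gz_coord θ r (eS θ (Zb r) (Zb_meas r) z), eS_coord θ (Zb r) (Zb_meas r) z,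
    Lp.coeFn_zero Fib 2 (circleMeasure : Measure Circ)] with x h1 h2 h0
  change (Gz θ r (eS θ (Zb r) (Zb_meas r) z)) x = (0 : Hc) x
  rw [h0]
  ext k
  rw [h1 k, h2 k]
  by_cases hx : x + k • (θ : Circ) ∈ Zb r
  · rw [(gz_eq_zero_iff r _).mpr hx]
    simp
  · rw [Set.indicator_of_notMem hx]
    simp

theorem eS_of_Gz_eq_zero (θ r : ℝ) (z : Hc) (hz : Gz θ r z = 0) :
    eS θ (Zb r) (Zb_meas r) z = z := by
  apply Lp.ext
  filter_upwards [Gz_coord θ r z, eS_coord θ (Zb r) (Zb_meas r) z,
    Lp.coeFn_zero Fib 2 (circleMeasure : Measure Circ)] with x h1 h2 h0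
  ext k
  rw [h2 k]
  have h3 := h1 k
  rw [hz, h0] at h3
  by_cases hx : x + k • (θ : Circ) ∈ Zb r
  · rw [Set.indicator_of_mem hx, one_mul]
  · rw [Set.indicator_of_notMem hx, zero_mul]
    have h4 : ((gz r (x + k • (θ : Circ)) : ℝ) : ℂ) ≠ 0 := by
      intro h5
      exact hx ((gz_eq_zero_iff r _).mp (by exact_mod_cast h5))
    have h5 : ((gz r (x + k • (θ : Circ)) : ℝ) : ℂ) * z x k = 0 := h3.symm
    exact ((mul_eq_zero.mp h5).resolve_left h4).symm

/-- the ball projections belong to the algebra -/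
theorem eS_mem (θ r : ℝ) : eS θ (Zb r) (Zb_meas r) ∈ Rotation.algebra θ := by
  rw [Member_mem_algebra_iff]
  intro B hB
  have hG := (Member_mem_algebra_iff θ (Gz θ r)).mp (Gz_mem θ r)
  have key : ∀ C ∈ StarSubalgebra.centralizer ℂ ({Rotation.U, Rotation.V θ} : Set (Hc →L[ℂ] Hc)),
      eS θ (Zb r) (Zb_meas r) * C * eS θ (Zb r) (Zb_meas r) = C * eS θ (Zb r) (Zb_meas r) := by
    intro C hC
    ext1 z
    change eS θ (Zb r) (Zb_meas r) (C (eS θ (Zb r) (Zb_meas r) z)) = C (eS θ (Zb r) (Zb_meas r) z)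
    apply eS_of_Gz_eq_zero
    have h1 : Gz θ r * C = C * Gz θ r := (hG C hC).symm
    have h2 : (Gz θ r * C) (eS θ (Zb r) (Zb_meas r) z) = (C * (Gz θ r * eS θ (Zb r) (Zb_meas r))) z := by
      rw [h1]; rfl
    rw [Gz_mul_eS, mul_zero] at h2
    exact h2
  exact comm_of_inv (eS_proj θ _ _) (key B hB) (key (star B) (star_mem hB))

theorem vol_Zb (r : ℝ) :
    ((circleMeasure : Measure Circ) (Zb r)).toReal = max 0 (min 1 (2 * r)) := by
  show (volume (Metric.closedBall (0 : Circ) r)).toReal = _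
  rw [AddCircle.volume_closedBall, ENNReal.toReal_ofReal', max_comm]

theorem eS_congr (θ : ℝ) {E F : Set Circ} (hE : MeasurableSet E) (hF : MeasurableSet F) (h : E = F) :
    eS θ E hE = eS θ F hF := by
  subst h
  rfl

/-- the intersection of the ranges of two projections -/
noncomputable def Kint (p e : Hc →L[ℂ] Hc) : Submodule ℂ Hc :=
  LinearMap.ker ((1 - p : Hc →L[ℂ] Hc) : Hc →ₗ[ℂ] Hc) ⊓
    LinearMap.ker ((1 - e : Hc →L[ℂ] Hc) : Hc →ₗ[ℂ] Hc)

theorem mem_Kint {p e : Hc →L[ℂ] Hc} {η : Hc} : η ∈ Kint p e ↔ p η = η ∧ e η = η := by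
  unfold Kint
  rw [Submodule.mem_inf, LinearMap.mem_ker, LinearMap.mem_ker]
  change (η - p η = 0 ∧ η - e η = 0) ↔ _
  rw [sub_eq_zero, sub_eq_zero]
  exact ⟨fun h => ⟨h.1.symm, h.2.symm⟩, fun h => ⟨h.1.symm, h.2.symm⟩⟩

theorem isClosed_Kint (p e : Hc →L[ℂ] Hc) : IsClosed (Kint p e : Set Hc) := by
  have h1 : IsClosed {η : Hc | p η = η} := isClosed_eq p.continuous continuous_id
  have h2 : IsClosed {η : Hc | e η = η} := isClosed_eq e.continuous continuous_id
  have h3 : (Kint p e : Set Hc) = {η : Hc | p η = η} ∩ {η : Hc | e η = η} := by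
    ext η
    exact mem_Kint
  rw [h3]
  exact h1.inter h2

theorem exists_sub (θ : ℝ) (p e : Hc →L[ℂ] Hc) (hp : p ∈ Rotation.algebra θ)
    (hp' : IsStarProjection p) (he : e ∈ Rotation.algebra θ)
    (hne : e * p ≠ p) (hK : Kint p e ≠ ⊥) :
    ∃ q ∈ Rotation.algebra θ, IsStarProjection q ∧ q ≠ 0 ∧ q ≠ p ∧ q * p = q := by
  have : CompleteSpace (Kint p e) := (isClosed_Kint p e).completeSpace_coe
  set q : Hc →L[ℂ] Hc := (Kint p e).starProjection with hq
  have hqp : IsStarProjection q := isStarProjection_starProjection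
  have hmem : ∀ z, q z ∈ Kint p e := fun z => (Kint p e).starProjection_apply_mem z
  have hfix : ∀ z ∈ Kint p e, q z = z := fun z hz => (Kint p e).starProjection_eq_self_iff.mpr hz
  refine ⟨q, ?_, hqp, ?_, ?_, ?_⟩
  · rw [Member_mem_algebra_iff]
    intro B hB
    have hpc := (Member_mem_algebra_iff θ p).mp hp
    have hec := (Member_mem_algebra_iff θ e).mp he
    have key : ∀ C ∈ StarSubalgebra.centralizer ℂ ({Rotation.U, Rotation.V θ} : Set (Hc →L[ℂ] Hc)),
        q * C * q = C * q := by
      intro C hC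
      ext1 z
      change q (C (q z)) = C (q z)
      apply hfix
      have hz := mem_Kint.mp (hmem z)
      rw [mem_Kint]
      constructor
      · have h1 := congrArg (fun A : Hc →L[ℂ] Hc => A (q z)) (hpc C hC)
        change C (p (q z)) = p (C (q z)) at h1
        rw [← h1, hz.1]
      · have h1 := congrArg (fun A : Hc →L[ℂ] Hc => A (q z)) (hec C hC)
        change C (e (q z)) = e (C (q z)) at h1
        rw [← h1, hz.2]
    exact comm_of_inv hqp (key B hB) (key (star B) (star_mem hB))
  · intro h0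
    apply hK
    rw [Submodule.eq_bot_iff]
    intro z hz
    rw [← hfix z hz, h0]
    rfl
  · intro hqe
    apply hne
    ext1 z
    change e (p z) = p z
    rw [← hqe]
    exact (mem_Kint.mp (hmem z)).2
  · have h1 : p * q = q := by
      ext1 z
      exact (mem_Kint.mp (hmem z)).1
    have h2 := congrArg star h1
    rwa [star_mul, hp'.isSelfAdjoint.star_eq, hqp.isSelfAdjoint.star_eq] at h2

theorem vol_step (x d : ℝ) (hd : 0 ≤ d) : max 0 (min 1 (x + d)) ≤ max 0 (min 1 x) + d := by
  apply max_le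
  · have := le_max_left 0 (min 1 x)
    linarith
  · have h1 : min 1 (x + d) ≤ min 1 x + d := by
      rw [← min_add_add_right]
      exact min_le_min (by linarith) le_rfl
    have h2 := le_max_right 0 (min 1 x)
    linarith

/-- (C) no minimal projections -/
theorem no_minimal (θ : ℝ) (p : Hc →L[ℂ] Hc) (hp : p ∈ Rotation.algebra θ)
    (hp' : IsStarProjection p) (h0 : p ≠ 0) :
    ∃ q ∈ Rotation.algebra θ, IsStarProjection q ∧ q ≠ 0 ∧ q ≠ p ∧ q * p = q := by
  have hpM := inMM_of_mem hp
  have ht : 0 < (tau p).re := hpM.tau_pos hp' h0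
  obtain ⟨n, hn⟩ := exists_nat_one_div_lt ht
  set ρ : ℕ → ℝ := fun i => ((i : ℝ) - 1) / (2 * ((n : ℝ) + 1)) with hρ
  have hn1 : (0 : ℝ) < (n : ℝ) + 1 := by positivity
  have hex : ∃ i : ℕ, eS θ (Zb (ρ i)) (Zb_meas _) * p = p := by
    refine ⟨n + 2, ?_⟩
    have h1 : Zb (ρ (n + 2)) = Set.univ := by
      apply AddCircle.closedBall_eq_univ_of_half_period_le (1 : ℝ) one_ne_zero
      simp only [hρ]
      push_cast
      rw [abs_one, le_div_iff₀ (by positivity)]
      linarith
    rw [eS_congr θ (Zb_meas _) MeasurableSet.univ h1, eS_univ, one_mul]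
  classical
  have hspec := Nat.find_spec hex
  have hmin := fun m (hm : m < Nat.find hex) => Nat.find_min hex hm
  have hi0 : Nat.find hex ≠ 0 := by
    intro h
    rw [h] at hspec
    have h1 : (circleMeasure : Measure Circ) (Zb (ρ 0)) = 0 := by
      show volume (Metric.closedBall (0 : Circ) (ρ 0)) = 0
      rw [AddCircle.volume_closedBall, ENNReal.ofReal_eq_zero]
      apply (min_le_right _ _).trans
      simp only [hρ]
      have : ((0 : ℕ) : ℝ) - 1 = -1 := by norm_num
      rw [this]
      have h3 : (-1 : ℝ) / (2 * ((n : ℝ) + 1)) ≤ 0 :=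
        div_nonpos_of_nonpos_of_nonneg (by norm_num) (by positivity)
      linarith
    rw [eS_eq_zero θ _ _ h1, zero_mul] at hspec
    exact h0 hspec.symm
  obtain ⟨j, hj⟩ := Nat.exists_eq_succ_of_ne_zero hi0
  rw [hj] at hspec
  have hjn := hmin j (by omega)
  set a := eS θ (Zb (ρ j)) (Zb_meas _) with ha
  set b := eS θ (Zb (ρ (j + 1))) (Zb_meas _) with hb
  have hρle : ρ (j + 1) = ρ j + 1 / (2 * ((n : ℝ) + 1)) := by
    simp only [hρ]
    push_cast
    ring
  have hsub : Zb (ρ j) ⊆ Zb (ρ (j + 1)) := by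
    apply Metric.closedBall_subset_closedBall
    rw [hρle]
    have : 0 ≤ 1 / (2 * ((n : ℝ) + 1)) := by positivity
    linarith
  by_cases hK : Kint p a = ⊥
  · exfalso
    have hab : a * b = a := eS_mul_of_subset θ _ _ hsub
    have hW : IsStarProjection (a + (1 - b)) :=
      (eS_proj θ _ _).add (eS_proj θ _ _).one_sub (by rw [mul_sub, mul_one, hab, sub_self])
    have hWM : InMM θ (a + (1 - b)) :=
      (eS_inMM θ _ _).add ((InMM.one θ).sub (eS_inMM θ _ _))
    have hdim := dimension_lemma hpM hWM hp' hW (fun η h1 h2 => by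
      have h3 : b η = η := by
        have := congrArg (fun A : Hc →L[ℂ] Hc => A η) hspec
        change b (p η) = p η at this
        rwa [h1] at this
      have h4 : a η + (η - b η) = η := h2
      rw [h3, sub_self, add_zero] at h4
      have h5 : η ∈ Kint p a := mem_Kint.mpr ⟨h1, h4⟩
      rw [hK] at h5
      exact (Submodule.mem_bot ℂ).mp h5)
    rw [tau_add, tau_sub, tau_one, Complex.add_re, Complex.sub_re, Complex.one_re, ha, hb, tau_eS,
      tau_eS, vol_Zb, vol_Zb, hρle] at hdim
    have h6 := vol_step (2 * ρ j) (1 / ((n : ℝ) + 1)) (by positivity)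
    have h7 : 2 * (ρ j + 1 / (2 * ((n : ℝ) + 1))) = 2 * ρ j + 1 / ((n : ℝ) + 1) := by
      field_simp
    rw [h7] at hdim
    linarith
  · exact exists_sub θ p a hp hp' (eS_mem θ _) hjn hK

end Claimed.Agent.S0374
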